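/-!
# Row 230 (S0354-S0356): Petty's projection inequality for `n ≥ 4`.  Blueprint.

`σ = sg n` uniform on the sphere, `S = sh K` the shadow function (a norm, `Sh`), `M = bodyOf S` the
projection body, `N' = dn S` its gauge, `C0 = ∫ |u₁| = 2 κ_{n-1}/(n κ_n)` (`C0`).

1. Position (`Pos`, `Dual`, `Sh`): after a linear map `N'^β ⊥` harmonics of degree two (`Iso`).
2. `H = zH β N'` (average of `|⟪∇N', ·⟫|` with weight `N'^(β-1)/W'`), `Z = bodyOf H`, `N = dn H`.
   `S (∇N') ≤ 1`, so `vol (K + εZ) ≤ vol K + 2ε + o(ε)` (`Spl.seg`, `Zono`, `Mink.growth`) and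
   Brunn-Minkowski gives `n^n vol(K)^(n-1) vol Z ≤ 2^n` (`Mink`; equality case `Sec`, `PL1`, `BMEq`).
3. `H (∇N) ≤ 1` gives `DD β N N' ≤ W W'` (`Zh`).  Calibrate `|x| ≥ sign ⟪u,w⟫ x`: `β² DD ≥ Bf`.
4. `Bf` is diagonal on spherical harmonics with multipliers `β² C0 bm j` (`Poly`, `IBP`, `Orth`, `FH`,
   `Form`); the degree two term vanishes, so `Bf ≥ β² C0 (A A' - √U √U')`, `A = ∫ N^β`, where `U` is
   a `K`-functional bound `a Var(f - g) + B (energy(g)/(n-1) - κ Var g)` (`Dens`, `SpecA`, `SpecB`).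
5. Convexity of `N` gives the reverse Poincare inequality `∫ Φ'(N) |∇_S N|² ≤ (n-1) ∫ Φ(N) N` for
   `Φ ≥ 0` (`RevP`); with `g = ρ hh (max N 1)` and a one-variable certificate (`Cert`, `CertN`)
   `U ≤ A² - W² - η ∫ jj(N)` when `∫ N^-s = 1` (`One`).
6. Reverse Cauchy-Schwarz: `C0^n ≤ ∫ N^-n ∫ N'^-n = vol Z vol M / κ_n²` (`Core`), whence Petty
   (`Petty`, `Final54`).  Equality forces `N' = c ‖·‖`, `Z` a ball, `K` a ball.
7. S0355, S0356: products of simplices (`Blk1`-`Blk3`, `Final55`, `Final56`).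

Every file may be proved independently (statements of imported files are fixed; add private helper
lemmas with a file-specific prefix; do not change `Defs`).
-/
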